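import Vale.Agent.P054.H978b.Final

/-! Distinct distances in even dimension `d`: sets of dimension greater than `d / 2`, and an
inequality at one scale for all sets. -/

/-- In even dimension `d`: (1) a finite set with a Frostman bound of exponent `s > d / 2` and
constant `K` down to the scale `δ` has `c / (K ^ A δ)` distances which are `δ R`-separated;
(2) `n ^ (2 / d - ε)` distances for sets with such a bound down to `n ^ (-1 / s)`;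
(3) `c n ^ (-ε) (n / N) ^ (4 / d) (r / R) ^ 2` distances for every set in a ball of radius `R` with
at most `N` points in each ball of radius `r`. -/
theorem Vale.Agent.Results.P054.EvenFrostman.result (d : ℕ) (hd : Even d) (hd2 : 2 ≤ d) :
    (∀ s : ℝ, (d : ℝ) / 2 < s → ∃ A : ℕ, ∃ c : ℝ, 0 < c ∧
      ∀ (P : Finset (EuclideanSpace ℝ (Fin d))) (x₀ : EuclideanSpace ℝ (Fin d)) (R δ K : ℝ),
        2 ≤ P.card → 0 < R → 0 < δ → δ ≤ 1 → 1 ≤ K → (∀ p ∈ P, dist p x₀ ≤ R) →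
        (∀ x : EuclideanSpace ℝ (Fin d), ∀ r : ℝ, δ * R ≤ r → r ≤ R →
          ((P.filter fun p => dist p x ≤ r).card : ℝ) ≤ K * P.card * (r / R) ^ s) →
        ∃ T : Finset ℝ, (∀ t ∈ T, ∃ p ∈ P, ∃ p' ∈ P, p ≠ p' ∧ dist p p' = t) ∧
          (∀ t ∈ T, ∀ t' ∈ T, t ≠ t' → δ * R < |t - t'|) ∧ c / (K ^ A * δ) ≤ (T.card : ℝ)) ∧
    (∀ s : ℝ, (d : ℝ) / 2 < s → ∀ ε : ℝ, 0 < ε → ∃ η : ℝ, 0 < η ∧ ∃ c : ℝ, 0 < c ∧
      ∀ (P : Finset (EuclideanSpace ℝ (Fin d))) (x₀ : EuclideanSpace ℝ (Fin d)) (R : ℝ),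
        2 ≤ P.card → 0 < R → (∀ p ∈ P, dist p x₀ ≤ R) →
        (∀ x : EuclideanSpace ℝ (Fin d), ∀ r : ℝ, R * (P.card : ℝ) ^ (-(1 / s)) ≤ r → r ≤ R →
          ((P.filter fun p => dist p x ≤ r).card : ℝ) ≤ (P.card : ℝ) ^ (1 + η) * (r / R) ^ s) →
        c * (P.card : ℝ) ^ (2 / (d : ℝ) - ε) ≤
          ({t : ℝ | ∃ p ∈ P, ∃ p' ∈ P, p ≠ p' ∧ dist p p' = t}.ncard : ℝ)) ∧
    (∀ ε : ℝ, 0 < ε → ∃ c : ℝ, 0 < c ∧
      ∀ (P : Finset (EuclideanSpace ℝ (Fin d))) (x₀ : EuclideanSpace ℝ (Fin d)) (R r N : ℝ),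
        2 ≤ P.card → 0 < r → r ≤ R → (∀ p ∈ P, dist p x₀ ≤ R) →
        (∀ x : EuclideanSpace ℝ (Fin d), ((P.filter fun p => dist p x ≤ r).card : ℝ) ≤ N) →
        c * (P.card : ℝ) ^ (-ε) * ((P.card : ℝ) / N) ^ (4 / (d : ℝ)) * (r / R) ^ 2 ≤
          ({t : ℝ | ∃ p ∈ P, ∃ p' ∈ P, p ≠ p' ∧ dist p p' = t}.ncard : ℝ)) := by
  obtain ⟨q, rfl⟩ := even_iff_two_dvd.1 hd
  have hq : 1 ≤ q := by omega
  have hcast : ((2 * q : ℕ) : ℝ) = 2 * (q:ℝ) := by push_cast; ring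
  have hq0 : (0:ℝ) < q := by exact_mod_cast hq
  have e1 : ((2 * q : ℕ) : ℝ) / 2 = q := by rw [hcast]; ring
  have e2 : 2 / ((2 * q : ℕ) : ℝ) = 1 / (q:ℝ) := by rw [hcast]; field_simp
  have e3 : 4 / ((2 * q : ℕ) : ℝ) = 2 / (q:ℝ) := by rw [hcast]; field_simp; norm_num
  refine ⟨fun s hs => ?_, fun s hs ε hε => ?_, fun ε hε => ?_⟩
  · rw [e1] at hs
    exact Vale.Agent.P054.H978b.mainI hq hs
  · rw [e1] at hs
    rw [e2]
    exact Vale.Agent.P054.H978b.mainII hq hs hε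
  · rw [e3]
    exact Vale.Agent.P054.H978b.mainIII hq hε
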