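import Vale.Agent.P054.MathlibUsed
import Vale.Agent.P054.H978.Final

/-!
# P054: distinct distances of sets on hypersurfaces, in every dimension `d ≥ 3`

If a set of `n` points of `ℝ^d` has at least `n^(1-η)` points on the zero set of a polynomial of
degree at most `n^η`, then it has `c n^(2/d + η)` distinct distances, even from one of its points.
-/

set_option autoImplicit false
set_option linter.all false

namespace Vale.Agent.Results.P054.Hypersurfaces

theorem result :
    ∀ d : ℕ, 3 ≤ d → ∃ η : ℝ, 0 < η ∧ ∀ K : ℝ, ∃ c : ℝ, 0 < c ∧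
      ∀ (P : Finset (EuclideanSpace ℝ (Fin d))) (f : MvPolynomial (Fin d) ℝ),
        2 ≤ P.card → f ≠ 0 → (f.totalDegree : ℝ) ≤ K * (P.card : ℝ) ^ η →
        (P.card : ℝ) ^ (1 - η) ≤
          K * ({p : EuclideanSpace ℝ (Fin d) | p ∈ P ∧
            MvPolynomial.eval (fun i => p i) f = 0}.ncard : ℝ) →
        ∃ p ∈ P, MvPolynomial.eval (fun i => p i) f = 0 ∧
          c * (P.card : ℝ) ^ (2 / (d : ℝ) + η) ≤
            ({r : ℝ | ∃ q ∈ P, q ≠ p ∧ r = dist p q}.ncard : ℝ) :=
  Vale.Agent.P054.H978.hypersurfaces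

end Vale.Agent.Results.P054.Hypersurfaces
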