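import Vale.Agent.P054.H978o.Three

/-! Distinct distances in odd dimension `d`: sets of dimension greater than `d / 2` which do not
concentrate near `(d + 1) / 2`-planes, sets of dimension greater than `(d + 1) / 2`, and an
inequality at one scale for all sets. -/

/-- In odd dimension `d ≥ 3`: (1) a finite set with a Frostman bound of exponent `s > d / 2` and
constant `K` down to the scale `δ`, and with at most `K n (w / R) ^ η` points in the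
`w`-neighbourhood of each plane of dimension at most `(d + 1) / 2`, has `c / (K ^ A δ)` distances
which are `δ R`-separated; (2) a finite set with a Frostman bound of exponent `s > (d + 1) / 2` and
constant `K` down to the scale `δ` has, for every `t` with `d / 2 < t ≤ s`, `c / (K ^ A δ ^ (s / t))`
distances which are `δ ^ (s / t) R`-separated; (3) `n ^ (2 / d - ε)` distances for sets with such a
bound down to `n ^ (-1 / s)`; (4) `c n ^ (-ε) (n / N) ^ (4 / (d - 1)) (r / R) ^ (2 (d + 1) / (d - 1))`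
distances for every set in a ball of radius `R` with at most `N` points in each ball of radius
`r`. -/
theorem Vale.Agent.Results.P054.OddFrostman.result (d : ℕ) (hd : Odd d) (hd3 : 3 ≤ d) :
    (∀ s : ℝ, (d : ℝ) / 2 < s → ∀ η : ℝ, 0 < η → ∃ A : ℕ, ∃ c : ℝ, 0 < c ∧
      ∀ (P : Finset (EuclideanSpace ℝ (Fin d))) (x₀ : EuclideanSpace ℝ (Fin d)) (R δ K : ℝ),
        2 ≤ P.card → 0 < R → 0 < δ → δ ≤ 1 → 1 ≤ K → (∀ p ∈ P, dist p x₀ ≤ R) →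
        (∀ x : EuclideanSpace ℝ (Fin d), ∀ r : ℝ, δ * R ≤ r → r ≤ R →
          ((P.filter fun p => dist p x ≤ r).card : ℝ) ≤ K * P.card * (r / R) ^ s) →
        (∀ W : AffineSubspace ℝ (EuclideanSpace ℝ (Fin d)),
          2 * Module.finrank ℝ W.direction ≤ d + 1 → ∀ w : ℝ, δ * R ≤ w → w ≤ R →
          ({p : EuclideanSpace ℝ (Fin d) | p ∈ P ∧ ∃ y ∈ W, dist p y ≤ w}.ncard : ℝ) ≤
            K * P.card * (w / R) ^ η) →
        ∃ T : Finset ℝ, (∀ t ∈ T, ∃ p ∈ P, ∃ p' ∈ P, p ≠ p' ∧ dist p p' = t) ∧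
          (∀ t ∈ T, ∀ t' ∈ T, t ≠ t' → δ * R < |t - t'|) ∧ c / (K ^ A * δ) ≤ (T.card : ℝ)) ∧
    (∀ s : ℝ, ((d : ℝ) + 1) / 2 < s → ∀ t : ℝ, (d : ℝ) / 2 < t → t ≤ s →
      ∃ A : ℕ, ∃ c : ℝ, 0 < c ∧
      ∀ (P : Finset (EuclideanSpace ℝ (Fin d))) (x₀ : EuclideanSpace ℝ (Fin d)) (R δ K : ℝ),
        2 ≤ P.card → 0 < R → 0 < δ → δ ≤ 1 → 1 ≤ K → (∀ p ∈ P, dist p x₀ ≤ R) →
        (∀ x : EuclideanSpace ℝ (Fin d), ∀ r : ℝ, δ * R ≤ r → r ≤ R →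
          ((P.filter fun p => dist p x ≤ r).card : ℝ) ≤ K * P.card * (r / R) ^ s) →
        ∃ T : Finset ℝ, (∀ t' ∈ T, ∃ p ∈ P, ∃ p' ∈ P, p ≠ p' ∧ dist p p' = t') ∧
          (∀ t' ∈ T, ∀ t'' ∈ T, t' ≠ t'' → δ ^ (s / t) * R < |t' - t''|) ∧
          c / (K ^ A * δ ^ (s / t)) ≤ (T.card : ℝ)) ∧
    (∀ s : ℝ, ((d : ℝ) + 1) / 2 < s → ∀ ε : ℝ, 0 < ε → ∃ η : ℝ, 0 < η ∧ ∃ c : ℝ, 0 < c ∧
      ∀ (P : Finset (EuclideanSpace ℝ (Fin d))) (x₀ : EuclideanSpace ℝ (Fin d)) (R : ℝ),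
        2 ≤ P.card → 0 < R → (∀ p ∈ P, dist p x₀ ≤ R) →
        (∀ x : EuclideanSpace ℝ (Fin d), ∀ r : ℝ, R * (P.card : ℝ) ^ (-(1 / s)) ≤ r → r ≤ R →
          ((P.filter fun p => dist p x ≤ r).card : ℝ) ≤ (P.card : ℝ) ^ (1 + η) * (r / R) ^ s) →
        c * (P.card : ℝ) ^ (2 / (d : ℝ) - ε) ≤
          ({t : ℝ | ∃ p ∈ P, ∃ p' ∈ P, p ≠ p' ∧ dist p p' = t}.ncard : ℝ)) ∧
    (∀ ε : ℝ, 0 < ε → ∃ c : ℝ, 0 < c ∧
      ∀ (P : Finset (EuclideanSpace ℝ (Fin d))) (x₀ : EuclideanSpace ℝ (Fin d)) (R r N : ℝ),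
        2 ≤ P.card → 0 < r → r ≤ R → (∀ p ∈ P, dist p x₀ ≤ R) →
        (∀ x : EuclideanSpace ℝ (Fin d), ((P.filter fun p => dist p x ≤ r).card : ℝ) ≤ N) →
        c * (P.card : ℝ) ^ (-ε) * ((P.card : ℝ) / N) ^ (4 / ((d : ℝ) - 1)) *
            (r / R) ^ (2 * ((d : ℝ) + 1) / ((d : ℝ) - 1)) ≤
          ({t : ℝ | ∃ p ∈ P, ∃ p' ∈ P, p ≠ p' ∧ dist p p' = t}.ncard : ℝ)) := by
  obtain ⟨q, rfl⟩ := hd
  have hq : 1 ≤ q := by omega
  have hcast : ((2 * q + 1 : ℕ) : ℝ) = 2 * (q:ℝ) + 1 := by push_cast; ring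
  have hq0 : (1:ℝ) ≤ q := by exact_mod_cast hq
  have e1 : ((2 * q + 1 : ℕ) : ℝ) / 2 = (q:ℝ) + 1 / 2 := by rw [hcast]; ring
  have e1' : (((2 * q + 1 : ℕ) : ℝ) + 1) / 2 = (q:ℝ) + 1 := by rw [hcast]; ring
  have e2 : 2 / ((2 * q + 1 : ℕ) : ℝ) = 1 / ((q:ℝ) + 1 / 2) := by
    rw [hcast, div_eq_div_iff (by linarith) (by linarith)]; ring
  have e3 : 4 / (((2 * q + 1 : ℕ) : ℝ) - 1) = 2 / (q:ℝ) := by
    rw [hcast, div_eq_div_iff (by linarith) (by linarith)]; ring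
  have e4 : 2 * (((2 * q + 1 : ℕ) : ℝ) + 1) / (((2 * q + 1 : ℕ) : ℝ) - 1) =
      2 * ((q:ℝ) + 1) / q := by
    rw [hcast, div_eq_div_iff (by linarith) (by linarith)]; ring
  refine ⟨fun s hs η hη => ?_, fun s hs t ht hts => ?_, fun s hs ε hε => ?_, fun ε hε => ?_⟩
  · rw [e1] at hs
    obtain ⟨A, c, hc, h⟩ := Vale.Agent.P054.H978o.mainIO hq hs (η := min 1 η)
      (lt_min one_pos hη) (min_le_left _ _)
    refine ⟨A, c, hc, fun P x₀ R δ K hP hR hδ hδ1 hK hPR hfr hW => ?_⟩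
    refine h P x₀ R δ K hP hR hδ hδ1 hK hPR hfr fun W hWd w hw1 hw2 => ?_
    have hw0 : 0 < w := lt_of_lt_of_le (mul_pos hδ hR) hw1
    have hWd' := (Nat.mul_le_mul_left 2 hWd).trans (le_of_eq (show 2 * (q + 1) = 2 * q + 1 + 1 by ring))
    have h1 := hW W hWd' w hw1 hw2
    have h2 : ({p : EuclideanSpace ℝ (Fin (2 * q + 1)) | p ∈ P ∧ ∃ y ∈ W, dist p y ≤ w}.ncard) =
        Vale.Agent.P054.H978o.nr P W w := by
      classical
      unfold Vale.Agent.P054.H978o.nr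
      rw [← Set.ncard_coe_finset]
      congr 1
      ext p
      simp
    rw [h2] at h1
    refine h1.trans (mul_le_mul_of_nonneg_left ?_ (by positivity))
    exact Real.rpow_le_rpow_of_exponent_ge (by positivity) ((div_le_one hR).2 hw2)
      (min_le_right _ _)
  · rw [e1'] at hs
    rw [e1] at ht
    exact Vale.Agent.P054.H978o.mainG hq hs ht hts
  · rw [e1'] at hs
    rw [e2]
    exact Vale.Agent.P054.H978o.mainIIO hq hs hε
  · rw [e3, e4]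
    exact Vale.Agent.P054.H978o.mainIIIO hq hε
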